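import Mathlib
import Vale.Agent.Lib.P262.GadgetData

namespace Vale.Agent.Results.P262.ImprovedPrefixBound

/-- For every dimension `d ≥ 3` there are finitely many vectors `v_1, …, v_N` in the Euclidean
unit ball of `ℝ^d` such that for every choice of signs `ε ∈ {-1, 1}^N` some prefix sum
`ε_1 v_1 + ⋯ + ε_k v_k` (`0 ≤ k ≤ N`) has Euclidean norm at least `√(d + 13/10)`.
In the notation of the problem: `σ(d) ≥ √(d + 13/10)` for all `d ≥ 3`. -/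
theorem result (d : ℕ) (hd : 3 ≤ d) :
    ∃ N : ℕ, ∃ v : Fin N → EuclideanSpace ℝ (Fin d),
      (∀ i, ‖v i‖ ≤ 1) ∧
      ∀ ε : Fin N → ℝ, (∀ i, ε i = 1 ∨ ε i = -1) →
        ∃ k : ℕ, k ≤ N ∧
          Real.sqrt ((d : ℝ) + 13 / 10) ≤
            ‖∑ i ∈ Finset.univ.filter (fun i : Fin N => (i : ℕ) < k), ε i • v i‖ := by
  obtain ⟨m, rfl⟩ : ∃ m, d = m + 3 := ⟨d - 3, by omega⟩
  obtain ⟨v, hv, h⟩ := Vale.Agent.Lib.P262.Cert.cert_main Vale.Agent.Lib.P262.Cert.gadget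
    10000 (by norm_num) 430000000 Vale.Agent.Lib.P262.Cert.gadget_ball
    Vale.Agent.Lib.P262.Cert.gadget_forced m
  refine ⟨_, v, hv, fun ε hε => ?_⟩
  obtain ⟨k, hk, hle⟩ := h ε hε
  refine ⟨k, hk, ?_⟩
  apply Real.sqrt_le_iff.mpr
  refine ⟨norm_nonneg _, ?_⟩
  have e : (((m + 3 : ℕ) : ℝ)) + 13 / 10
      = (m : ℝ) + ((430000000 : ℤ) : ℝ) / (((10000 : ℤ) : ℝ) * ((10000 : ℤ) : ℝ)) := by
    push_cast
    norm_num
    ring
  rw [e]
  exact hle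

end Vale.Agent.Results.P262.ImprovedPrefixBound
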