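import Mathlib
import Vale.Agent.Lib.P262.Gadget

namespace Vale.Agent.Results.P262.PrefixLowerBound

/-- For every dimension `d ≥ 2` there are `d + 1` vectors `v_1, …, v_{d+1}` in the Euclidean
unit ball of `ℝ^d` such that for every choice of signs `ε ∈ {-1, 1}^{d+1}` some prefix sum
`ε_1 v_1 + ⋯ + ε_k v_k` (`0 ≤ k ≤ d + 1`) has Euclidean norm at least `√(d + 1/2)`.
In the notation of the problem: `σ(d) ≥ σ(d, d + 1) ≥ √(d + 1/2) > √d`. -/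
theorem result (d : ℕ) (hd : 2 ≤ d) :
    ∃ v : Fin (d + 1) → EuclideanSpace ℝ (Fin d),
      (∀ i, ‖v i‖ ≤ 1) ∧
      ∀ ε : Fin (d + 1) → ℝ, (∀ i, ε i = 1 ∨ ε i = -1) →
        ∃ k : ℕ, k ≤ d + 1 ∧
          Real.sqrt ((d : ℝ) + 1 / 2) ≤
            ‖∑ i ∈ Finset.univ.filter (fun i : Fin (d + 1) => (i : ℕ) < k), ε i • v i‖ := by
  obtain ⟨m, rfl⟩ : ∃ m, d = m + 2 := ⟨d - 2, by omega⟩
  exact Vale.Agent.Lib.P262.gadget_main m

end Vale.Agent.Results.P262.PrefixLowerBound
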