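import Mathlib
import Vale.Agent.Lib.P262.VecPrefix

namespace Vale.Agent.Results.P262.VectorRelaxation

/-- Vector-sign (semidefinite) relaxation of the signed-prefix problem.
For all `d`, `N` and all `v_1, …, v_N` in the Euclidean unit ball of `ℝ^d` there are unit
vectors `y_1, …, y_N ∈ ℝ^N` such that for every prefix length `k`:
* `‖∑_{i ≤ k} ⟨u, v_i⟩ y_i‖ ≤ ‖u‖` for every `u ∈ ℝ^d`, and
* `∑_{i, j ≤ k} ⟨v_i, v_j⟩ ⟨y_i, y_j⟩ ≤ d`.
The second quantity is `‖∑_{i ≤ k} ε_i v_i‖²` with the products `ε_i ε_j` of signs replaced by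
the inner products `⟨y_i, y_j⟩` of unit vectors. -/
theorem result (d N : ℕ) (v : Fin N → EuclideanSpace ℝ (Fin d)) (hv : ∀ i, ‖v i‖ ≤ 1) :
    ∃ y : Fin N → EuclideanSpace ℝ (Fin N), (∀ i, ‖y i‖ = 1) ∧
      ∀ k : ℕ,
        (∀ u : EuclideanSpace ℝ (Fin d),
          ‖∑ i ∈ Finset.univ.filter (fun i : Fin N => (i : ℕ) < k), inner ℝ u (v i) • y i‖
            ≤ ‖u‖) ∧
        ∑ i ∈ Finset.univ.filter (fun i : Fin N => (i : ℕ) < k),
          ∑ j ∈ Finset.univ.filter (fun j : Fin N => (j : ℕ) < k),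
            inner ℝ (v i) (v j) * inner ℝ (y i) (y j) ≤ d :=
  Vale.Agent.Lib.P262.vec_prefix d N v hv

end Vale.Agent.Results.P262.VectorRelaxation
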