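import Mathlib
import Vale.Agent.Results.P262.ImprovedPrefixBound
import Vale.Agent.Results.P262.PrefixLowerBound
import Vale.Agent.Results.P262.VectorRelaxation

/-!
# P262 (Euclidean vector balancing for prefix sums): the three results in one statement

The conjunction of the three hand-ins for this problem, each statement copied verbatim.

1. `ImprovedPrefixBound`: for every `d ≥ 3` there are finitely many vectors in the Euclidean
   unit ball of `ℝ^d` such that for every choice of signs some prefix sum has norm at least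
   `√(d + 13/10)`.
2. `PrefixLowerBound`: for every `d ≥ 2` there are `d + 1` such vectors for which some prefix
   sum has norm at least `√(d + 1/2)`.
3. `VectorRelaxation`: for all vectors `v_1, …, v_N` in the unit ball of `ℝ^d` there are unit
   vectors `y_1, …, y_N` with `‖∑_{i ≤ k} ⟨u, v_i⟩ y_i‖ ≤ ‖u‖` for all `u` and
   `∑_{i, j ≤ k} ⟨v_i, v_j⟩ ⟨y_i, y_j⟩ ≤ d`, for every prefix length `k`.
-/

namespace Vale.Agent.Results.P262.PrefixBoundsCombined

theorem result :
    (∀ (d : ℕ), 3 ≤ d →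
      ∃ N : ℕ, ∃ v : Fin N → EuclideanSpace ℝ (Fin d),
        (∀ i, ‖v i‖ ≤ 1) ∧
        ∀ ε : Fin N → ℝ, (∀ i, ε i = 1 ∨ ε i = -1) →
          ∃ k : ℕ, k ≤ N ∧
            Real.sqrt ((d : ℝ) + 13 / 10) ≤
              ‖∑ i ∈ Finset.univ.filter (fun i : Fin N => (i : ℕ) < k), ε i • v i‖) ∧
    (∀ (d : ℕ), 2 ≤ d →
      ∃ v : Fin (d + 1) → EuclideanSpace ℝ (Fin d),
        (∀ i, ‖v i‖ ≤ 1) ∧
        ∀ ε : Fin (d + 1) → ℝ, (∀ i, ε i = 1 ∨ ε i = -1) →
          ∃ k : ℕ, k ≤ d + 1 ∧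
            Real.sqrt ((d : ℝ) + 1 / 2) ≤
              ‖∑ i ∈ Finset.univ.filter (fun i : Fin (d + 1) => (i : ℕ) < k), ε i • v i‖) ∧
    (∀ (d N : ℕ) (v : Fin N → EuclideanSpace ℝ (Fin d)), (∀ i, ‖v i‖ ≤ 1) →
      ∃ y : Fin N → EuclideanSpace ℝ (Fin N), (∀ i, ‖y i‖ = 1) ∧
        ∀ k : ℕ,
          (∀ u : EuclideanSpace ℝ (Fin d),
            ‖∑ i ∈ Finset.univ.filter (fun i : Fin N => (i : ℕ) < k), inner ℝ u (v i) • y i‖
              ≤ ‖u‖) ∧
          ∑ i ∈ Finset.univ.filter (fun i : Fin N => (i : ℕ) < k),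
            ∑ j ∈ Finset.univ.filter (fun j : Fin N => (j : ℕ) < k),
              inner ℝ (v i) (v j) * inner ℝ (y i) (y j) ≤ d) :=
  ⟨fun d hd => Vale.Agent.Results.P262.ImprovedPrefixBound.result d hd,
   fun d hd => Vale.Agent.Results.P262.PrefixLowerBound.result d hd,
   fun d N v hv => Vale.Agent.Results.P262.VectorRelaxation.result d N v hv⟩

end Vale.Agent.Results.P262.PrefixBoundsCombined
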